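import Vale.Agent.P275ZA.Zar
import Vale.Agent.P275PA.Dfs

/-! P275, block ZAR: the forms used by the perverse part -/

open Vale.Agent.P275ST (ZarLE)

namespace Vale.Agent.P275ZA

variable {V : Type} [AddCommGroup V] [Module ℂ V] [FiniteDimensional ℂ V]
  [TopologicalSpace V] [IsTopologicalAddGroup V] [ContinuousSMul ℂ V] [T2Space V]

theorem dm {Z : Set V} {d : ℤ} (h : ZarLE Z d) : P275PA.Dm Z d := zar_dm h

theorem nice : P275S.Nice (TopCat.of V) := ⟨(nice_top (V := V)).1, ‹_›, (nice_top (V := V)).2⟩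

end Vale.Agent.P275ZA
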