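import Vale.Agent.P275ST.Geo

/-! P275, block ZAR: Zariski closed subsets of a vector space and their dimension -/

open Set
open Vale.Agent.P275ST (Pol IsZar ZarLE)

noncomputable section

namespace Vale.Agent.P275ZA

section ring

variable {R S : Type} [CommRing R] [CommRing S]

theorem len_le (f : R →+* S) (hf : f.IsIntegral) (l : LTSeries (PrimeSpectrum R))
    (h : RingHom.ker f ≤ l.head.asIdeal) : (l.length : WithBot ℕ∞) ≤ ringKrullDim S := by
  let _ := f.toAlgebra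
  have : Algebra.IsIntegral R S := ⟨hf⟩
  obtain ⟨Q, -, hQ, hQ'⟩ := Ideal.exists_ideal_over_prime_of_isIntegral l.head.asIdeal
    (⊥ : Ideal S) h
  have : Q.LiesOver l.head.asIdeal := ⟨hQ'.symm⟩
  obtain ⟨L, hL, -, -⟩ := Ideal.exists_ltSeries_of_hasGoingUp l Q
  rw [← hL]
  exact Order.LTSeries.length_le_krullDim L

theorem dim_le_of_inj (f : R →+* S) (hf : f.IsIntegral) (hi : Function.Injective f) :
    ringKrullDim R ≤ ringKrullDim S :=
  iSup_le fun l => len_le f hf l (by rw [(RingHom.injective_iff_ker_eq_bot f).1 hi]; exact bot_le)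

theorem dim_le_of_int (f : R →+* S) (hf : f.IsIntegral) : ringKrullDim S ≤ ringKrullDim R := by
  let _ := f.toAlgebra
  have : Algebra.IsIntegral R S := ⟨hf⟩
  refine Order.krullDim_le_of_strictMono (fun p => PrimeSpectrum.comap (algebraMap R S) p) ?_
  intro p q hpq
  exact Ideal.IsIntegral.comap_lt_comap hpq

theorem dim_mv (s : ℕ) : ringKrullDim (MvPolynomial (Fin s) ℂ) = s := by
  rw [MvPolynomial.ringKrullDim_of_isNoetherianRing, ringKrullDim_eq_zero_of_field]
  simp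

end ring

variable {V : Type} [AddCommGroup V] [Module ℂ V]

/-- the value of a polynomial function -/
def ev (f : Pol (univ : Set V)) (v : V) : ℂ := f.1 ⟨v, trivial⟩

@[simp] theorem ev_add (f g : Pol (univ : Set V)) (v : V) : ev (f + g) v = ev f v + ev g v := rfl
@[simp] theorem ev_mul (f g : Pol (univ : Set V)) (v : V) : ev (f * g) v = ev f v * ev g v := rfl
@[simp] theorem ev_sub (f g : Pol (univ : Set V)) (v : V) : ev (f - g) v = ev f v - ev g v := rfl
@[simp] theorem ev_zero (v : V) : ev (0 : Pol (univ : Set V)) v = 0 := rfl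
@[simp] theorem ev_one (v : V) : ev (1 : Pol (univ : Set V)) v = 1 := rfl
@[simp] theorem ev_alg (c : ℂ) (v : V) : ev (algebraMap ℂ (Pol (univ : Set V)) c) v = c := rfl

/-- a linear form as a polynomial function -/
def lin (Z : Set V) (φ : V →ₗ[ℂ] ℂ) : Pol Z := ⟨fun z => φ z, Algebra.subset_adjoin ⟨φ, rfl⟩⟩

@[simp] theorem ev_lin (φ : V →ₗ[ℂ] ℂ) (v : V) : ev (lin univ φ) v = φ v := rfl

theorem pol_ind {Z : Set V} {p : Pol Z → Prop} (h1 : ∀ φ, p (lin Z φ))
    (h2 : ∀ c, p (algebraMap ℂ _ c)) (h3 : ∀ f g, p f → p g → p (f + g))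
    (h4 : ∀ f g, p f → p g → p (f * g)) (f : Pol Z) : p f := by
  obtain ⟨f, hf⟩ := f
  induction hf using Algebra.adjoin_induction with
  | mem x hx => obtain ⟨φ, rfl⟩ := hx; exact h1 φ
  | algebraMap c => exact h2 c
  | add x y hx hy px py => exact h3 ⟨x, hx⟩ ⟨y, hy⟩ px py
  | mul x y hx hy px py => exact h4 ⟨x, hx⟩ ⟨y, hy⟩ px py

theorem rs_mem {Y Z : Set V} (h : Y ⊆ Z) (f : Pol Z) :
    (fun y : Y => f.1 ⟨y, h y.2⟩) ∈ Pol Y := by
  induction f using pol_ind with
  | h1 φ => exact (lin Y φ).2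
  | h2 c => exact (Pol Y).algebraMap_mem c
  | h3 f g hf hg => exact (Pol Y).add_mem hf hg
  | h4 f g hf hg => exact (Pol Y).mul_mem hf hg

/-- restriction of polynomial functions -/
def rs {Y Z : Set V} (h : Y ⊆ Z) : Pol Z →ₐ[ℂ] Pol Y where
  toFun f := ⟨fun y => f.1 ⟨y, h y.2⟩, rs_mem h f⟩
  map_one' := rfl
  map_mul' _ _ := rfl
  map_zero' := rfl
  map_add' _ _ := rfl
  commutes' _ := rfl

theorem rs_apply {Y Z : Set V} (h : Y ⊆ Z) (f : Pol Z) (y : Y) : (rs h f).1 y = f.1 ⟨y, h y.2⟩ :=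
  rfl

theorem rs_surj {Y Z : Set V} (h : Y ⊆ Z) : Function.Surjective (rs h) := fun f => by
  induction f using pol_ind with
  | h1 φ => exact ⟨lin Z φ, rfl⟩
  | h2 c => exact ⟨algebraMap ℂ _ c, rfl⟩
  | h3 f g hf hg =>
    obtain ⟨a, rfl⟩ := hf
    obtain ⟨b, rfl⟩ := hg
    exact ⟨a + b, rfl⟩
  | h4 f g hf hg =>
    obtain ⟨a, rfl⟩ := hf
    obtain ⟨b, rfl⟩ := hg
    exact ⟨a * b, rfl⟩

/-- restriction from the whole space -/
abbrev ru (Y : Set V) : Pol (univ : Set V) →ₐ[ℂ] Pol Y := rs (subset_univ Y)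

theorem ru_apply {Y : Set V} (f : Pol (univ : Set V)) (y : Y) : (ru Y f).1 y = ev f y := rfl

theorem ru_eq_zero {Y : Set V} {f : Pol (univ : Set V)} : ru Y f = 0 ↔ ∀ y ∈ Y, ev f y = 0 :=
  ⟨fun h y hy => congrArg (fun g : Pol Y => g.1 ⟨y, hy⟩) h,
    fun h => Subtype.ext (funext fun y => h y y.2)⟩

theorem dim_mono {Y Z : Set V} (h : Y ⊆ Z) : ringKrullDim (Pol Y) ≤ ringKrullDim (Pol Z) :=
  ringKrullDim_le_of_surjective (rs h).toRingHom (rs_surj h)

theorem dim_union (Y Z : Set V) :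
    ringKrullDim (Pol (Y ∪ Z)) ≤ max (ringKrullDim (Pol Y)) (ringKrullDim (Pol Z)) := by
  refine iSup_le fun l => ?_
  have h0 : RingHom.ker (rs (subset_union_left : Y ⊆ Y ∪ Z)).toRingHom ⊓
      RingHom.ker (rs (subset_union_right : Z ⊆ Y ∪ Z)).toRingHom ≤ l.head.asIdeal := by
    rintro f ⟨h1, h2⟩
    have : f = 0 := Subtype.ext (funext fun y => y.2.elim
      (fun hy => congrArg (fun g : Pol Y => g.1 ⟨y, hy⟩) h1)
      (fun hy => congrArg (fun g : Pol Z => g.1 ⟨y, hy⟩) h2))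
    rw [this]
    exact zero_mem _
  have key : ∀ {T : Set V} (hT : T ⊆ Y ∪ Z), RingHom.ker (rs hT).toRingHom ≤ l.head.asIdeal →
      (l.length : WithBot ℕ∞) ≤ ringKrullDim (Pol T) := fun hT h =>
    len_le (rs hT).toRingHom (RingHom.isIntegral_of_surjective _ (rs_surj hT)) l h
  rcases (l.head.isPrime.inf_le).1 h0 with h | h
  · exact le_max_of_le_left (key _ h)
  · exact le_max_of_le_right (key _ h)

theorem isZar_iff {Z : Set V} : IsZar Z ↔ ∀ v, (∀ f, ru Z f = 0 → ev f v = 0) → v ∈ Z :=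
  ⟨fun ⟨_, hS⟩ v hv => (hS v).2 fun f hf => hv f (ru_eq_zero.2 fun y hy => (hS y).1 hy f hf),
    fun h => ⟨{f | ru Z f = 0}, fun v => ⟨fun hv _ hf => ru_eq_zero.1 hf v hv, h v⟩⟩⟩

theorem isZar_univ : IsZar (univ : Set V) := ⟨∅, by simp⟩

theorem isZar_empty : IsZar (∅ : Set V) :=
  isZar_iff.2 fun v h => by simpa using h 1 (ru_eq_zero.2 (by simp))

theorem isZar_zero (f : Pol (univ : Set V)) : IsZar {v | ev f v = 0} := ⟨{f}, by simp [ev]⟩

theorem isZar_inter {Y Z : Set V} (hY : IsZar Y) (hZ : IsZar Z) : IsZar (Y ∩ Z) := by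
  obtain ⟨S, hS⟩ := hY
  obtain ⟨T, hT⟩ := hZ
  exact ⟨S ∪ T, fun v => by simp only [mem_inter_iff, hS, hT, mem_union, or_imp, forall_and]⟩

theorem isZar_iInter {ι : Type} {Y : ι → Set V} (hY : ∀ i, IsZar (Y i)) : IsZar (⋂ i, Y i) := by
  choose S hS using hY
  exact ⟨⋃ i, S i, fun v => by
    simp only [mem_iInter, hS, mem_iUnion, forall_exists_index]
    exact ⟨fun h f i hf => h i f hf, fun h i f hf => h f i hf⟩⟩

theorem isZar_union {Y Z : Set V} (hY : IsZar Y) (hZ : IsZar Z) : IsZar (Y ∪ Z) := by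
  refine isZar_iff.2 fun v hv => ?_
  by_contra hn
  rw [mem_union, not_or] at hn
  obtain ⟨f, hf, hf'⟩ : ∃ f, ru Y f = 0 ∧ ev f v ≠ 0 := by
    by_contra h
    push Not at h
    exact hn.1 (isZar_iff.1 hY v h)
  obtain ⟨g, hg, hg'⟩ : ∃ f, ru Z f = 0 ∧ ev f v ≠ 0 := by
    by_contra h
    push Not at h
    exact hn.2 (isZar_iff.1 hZ v h)
  refine mul_ne_zero hf' hg' (hv (f * g) (ru_eq_zero.2 fun y hy => ?_))
  rcases hy with hy | hy
  · simp [ru_eq_zero.1 hf y hy]
  · simp [ru_eq_zero.1 hg y hy]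

theorem nontrivial_pol {Z : Set V} (h : Z.Nonempty) : Nontrivial (Pol Z) := by
  obtain ⟨z, hz⟩ := h
  exact ⟨0, 1, fun h => zero_ne_one (congrArg (fun g : Pol Z => g.1 ⟨z, hz⟩) h)⟩

theorem zarLE_empty (e : ℤ) : ZarLE (∅ : Set V) e := by
  refine ⟨isZar_empty, ?_⟩
  have : Subsingleton (Pol (∅ : Set V)) := ⟨fun a b => Subtype.ext (funext fun y => y.2.elim)⟩
  rw [ringKrullDim_eq_bot_of_subsingleton]
  exact WithBot.bot_lt_coe _

theorem zarLE_neg {Z : Set V} {e : ℤ} (he : e < 0) (h : ZarLE Z e) : Z = ∅ := by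
  by_contra hn
  have := nontrivial_pol (nonempty_iff_ne_empty.2 hn)
  have h2 := h.2
  rw [show (e + 1).toNat = 0 by omega] at h2
  exact absurd (ringKrullDim_nonneg_of_nontrivial (R := Pol Z)) (not_le.2 (by simpa using h2))

theorem zarLE_le {Z : Set V} {e e' : ℤ} (h : ZarLE Z e) (he : e ≤ e') : ZarLE Z e' :=
  ⟨h.1, h.2.trans_le (by exact_mod_cast (show (e + 1).toNat ≤ (e' + 1).toNat by omega))⟩

theorem zarLE_sub {Y Z : Set V} {e : ℤ} (h : ZarLE Z e) (hY : IsZar Y) (hs : Y ⊆ Z) : ZarLE Y e :=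
  ⟨hY, (dim_mono hs).trans_lt h.2⟩

theorem zarLE_union {Y Z : Set V} {e : ℤ} (hY : ZarLE Y e) (hZ : ZarLE Z e) : ZarLE (Y ∪ Z) e :=
  ⟨isZar_union hY.1 hZ.1, (dim_union Y Z).trans_lt (max_lt hY.2 hZ.2)⟩

theorem zarLE_biUnion {ι : Type} (s : Finset ι) {Z : ι → Set V} {e : ℤ}
    (h : ∀ i ∈ s, ZarLE (Z i) e) : ZarLE (⋃ i ∈ s, Z i) e := by
  classical
  induction s using Finset.induction_on with
  | empty => simpa using zarLE_empty e
  | insert a s ha ih =>
    rw [Finset.set_biUnion_insert]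
    exact zarLE_union (h a (by simp)) (ih fun i hi => h i (by simp [hi]))

theorem zarLE_iUnion {ι : Type} [Finite ι] {Z : ι → Set V} {e : ℤ} (h : ∀ i, ZarLE (Z i) e) :
    ZarLE (⋃ i, Z i) e := by
  have := Fintype.ofFinite ι
  simpa using zarLE_biUnion Finset.univ fun i _ => h i

/-- if the dimension is the natural number `s` -/
theorem zarLE_iff {Z : Set V} {e : ℤ} {s : ℕ} (hs : ringKrullDim (Pol Z) = s) :
    ZarLE Z e ↔ IsZar Z ∧ (s : ℤ) ≤ e := by
  refine and_congr_right fun _ => ?_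
  rw [hs]
  have : ((s : WithBot ℕ∞) < (((e + 1).toNat : ℕ∞) : WithBot ℕ∞)) ↔ s < (e + 1).toNat := by
    exact_mod_cast Iff.rfl
  rw [this]
  omega

variable [FiniteDimensional ℂ V]

/-- the coordinates -/
def crd (V : Type) [AddCommGroup V] [Module ℂ V] [FiniteDimensional ℂ V]
    (j : Fin (Module.finrank ℂ V)) : V →ₗ[ℂ] ℂ := (Module.finBasis ℂ V).coord j

theorem lin_eq (Z : Set V) (φ : V →ₗ[ℂ] ℂ) :
    lin Z φ = ∑ j, algebraMap ℂ _ (φ (Module.finBasis ℂ V j)) * lin Z (crd V j) := by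
  refine Subtype.ext (funext fun z => ?_)
  have := congrArg φ ((Module.finBasis ℂ V).sum_repr z)
  simp only [map_sum, map_smul, smul_eq_mul] at this
  simp only [lin, AddSubmonoidClass.coe_finsetSum, Finset.sum_apply, ← this]
  exact Finset.sum_congr rfl fun j _ => mul_comm _ _

theorem aeval_surj (Z : Set V) :
    Function.Surjective (MvPolynomial.aeval (R := ℂ) fun j => lin Z (crd V j)) := fun f => by
  change f ∈ (MvPolynomial.aeval (R := ℂ) fun j => lin Z (crd V j)).range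
  induction f using pol_ind with
  | h1 φ =>
    rw [lin_eq]
    exact sum_mem fun j _ => mul_mem (Subalgebra.algebraMap_mem _ _)
      ⟨MvPolynomial.X j, by simp⟩
  | h2 c => exact Subalgebra.algebraMap_mem _ _
  | h3 f g hf hg => exact add_mem hf hg
  | h4 f g hf hg => exact mul_mem hf hg

instance finiteType (Z : Set V) : Algebra.FiniteType ℂ (Pol Z) :=
  Algebra.FiniteType.of_surjective _ (aeval_surj Z)

instance noeth (Z : Set V) : IsNoetherianRing (Pol Z) := Algebra.FiniteType.isNoetherianRing ℂ _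

/-- Noether normalisation -/
theorem noether {Z : Set V} (h : Z.Nonempty) : ∃ (s : ℕ) (g : MvPolynomial (Fin s) ℂ →ₐ[ℂ] Pol Z),
    Function.Injective g ∧ g.Finite ∧ ringKrullDim (Pol Z) = s := by
  have := nontrivial_pol h
  obtain ⟨s, g, hi, hf⟩ := exists_finite_inj_algHom_of_fg ℂ (Pol Z)
  have hI : g.toRingHom.IsIntegral := RingHom.IsIntegral.of_finite hf
  exact ⟨s, g, hi, hf, le_antisymm (dim_mv s ▸ dim_le_of_int _ hI) (dim_mv s ▸ dim_le_of_inj _ hI hi)⟩

theorem zarLE_univ : ZarLE (univ : Set V) (Module.finrank ℂ V) := by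
  refine ⟨isZar_univ, (ringKrullDim_le_of_surjective
    (MvPolynomial.aeval (R := ℂ) fun j => lin univ (crd V j)).toRingHom (aeval_surj _)).trans_lt ?_⟩
  rw [dim_mv]
  exact_mod_cast (show Module.finrank ℂ V < ((Module.finrank ℂ V : ℤ) + 1).toNat by omega)

/-- Noetherian induction -/
theorem zar_ind {p : Set V → Prop}
    (h : ∀ Y, IsZar Y → (∀ Z, IsZar Z → Z ⊂ Y → p Z) → p Y) {Y : Set V} (hY : IsZar Y) : p Y := by
  have wf : WellFounded fun a b : Ideal (Pol (univ : Set V)) => b < a := wellFounded_gt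
  suffices H : ∀ I : Ideal (Pol (univ : Set V)), ∀ Y, IsZar Y → RingHom.ker (ru Y).toRingHom = I → p Y from
    H _ Y hY rfl
  intro I
  induction I using wf.induction with
  | _ I ih =>
    rintro Y hY rfl
    refine h Y hY fun Z hZ hZY => ih _ (lt_of_le_of_ne (fun f hf => ?_) fun he => ?_) Z hZ rfl
    · exact ru_eq_zero.2 fun y hy => ru_eq_zero.1 hf y (hZY.1 hy)
    · refine hZY.2 fun y hy => isZar_iff.1 hZ y fun f hf => ru_eq_zero.1 ?_ y hy
      have : f ∈ RingHom.ker (ru Z).toRingHom := hf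
      rw [← he] at this
      exact this

/-- the fibres of a normalisation are finite -/
theorem fib_finite {Z : Set V} {s : ℕ} (g : MvPolynomial (Fin s) ℂ →ₐ[ℂ] Pol Z) (hf : g.Finite)
    (x : Fin s → ℂ) : {z : Z | ∀ i, (g (MvPolynomial.X i)).1 z = x i}.Finite := by
  have hI : g.toRingHom.IsIntegral := RingHom.IsIntegral.of_finite hf
  choose P hP hP0 using fun j => hI (lin Z (crd V j))
  refine Finite.of_finite_image (f := fun (z : Z) j => crd V j z) ?_ fun a _ b _ hab => ?_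
  · refine (Finite.pi' fun j => ((P j).map (MvPolynomial.eval x)).rootSet_finite ℂ).subset ?_
    rintro _ ⟨z, hz, rfl⟩ j
    let e : Pol Z →+* ℂ := (Pi.evalRingHom (fun _ : Z => ℂ) z).comp (Pol Z).val.toRingHom
    have he : e.comp g.toRingHom = MvPolynomial.eval x := by
      refine MvPolynomial.ringHom_ext (fun c => ?_) fun i => ?_
      · have := g.commutes c
        simp only [MvPolynomial.algebraMap_eq] at this
        simp only [RingHom.comp_apply, AlgHom.toRingHom_eq_coe, RingHom.coe_coe, this,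
          MvPolynomial.eval_C]
        rfl
      · simp only [RingHom.comp_apply, MvPolynomial.eval_X]
        exact hz i
    have h1 := congrArg e (hP0 j)
    rw [Polynomial.hom_eval₂, he, map_zero] at h1
    rw [Polynomial.mem_rootSet_of_ne ((hP j).map _).ne_zero, Polynomial.coe_aeval_eq_eval,
      Polynomial.eval_map]
    exact h1
  · exact Subtype.ext ((Module.finBasis ℂ V).ext_elem fun j => congrFun hab j)

variable [TopologicalSpace V] [IsTopologicalAddGroup V] [ContinuousSMul ℂ V] [T2Space V]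

theorem cont_ev (f : Pol (univ : Set V)) : Continuous (ev f) := by
  induction f using pol_ind with
  | h1 φ => exact φ.continuous_of_finiteDimensional
  | h2 c => exact continuous_const
  | h3 f g hf hg => exact hf.add hg
  | h4 f g hf hg => exact hf.mul hg

theorem isZar_closed {Z : Set V} (h : IsZar Z) : IsClosed Z := by
  obtain ⟨S, hS⟩ := h
  have : Z = ⋂ f ∈ S, {v | ev f v = 0} := by
    ext v
    simp [hS, ev]
  rw [this]
  exact isClosed_biInter fun f _ => isClosed_eq (cont_ev f) continuous_const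

theorem zar_fin {Z : Set V} {d : ℤ} (h : ZarLE Z d) : Z = ∅ ∨ ∃ s : ℕ, (s : ℤ) ≤ d ∧
    ∃ g : V → Fin s → ℂ, Continuous g ∧ ∀ x, (Z ∩ g ⁻¹' {x}).Finite := by
  refine Z.eq_empty_or_nonempty.imp id fun hn => ?_
  obtain ⟨s, g, -, hf, hs⟩ := noether hn
  choose F hF using fun i => rs_surj (subset_univ Z) (g (MvPolynomial.X i))
  refine ⟨s, ((zarLE_iff hs).1 h).2, fun v i => ev (F i) v, continuous_pi fun i => cont_ev _,
    fun x => ((fib_finite g hf x).image Subtype.val).subset ?_⟩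
  rintro v ⟨hv, hx⟩
  exact ⟨⟨v, hv⟩, fun i => by rw [← hF i]; exact congrFun hx i, rfl⟩

/-- this is `P275PA.Dm Z d` -/
theorem zar_dm {Z : Set V} {d : ℤ} (h : ZarLE Z d) : IsClosed Z ∧ (Z = ∅ ∨ ∃ n : ℕ,
    (n : ℤ) ≤ 2 * d ∧ ∃ g : V → Fin n → ℝ, Continuous g ∧ ∀ y, (Z ∩ g ⁻¹' {y}).Finite) := by
  refine ⟨isZar_closed h.1, (zar_fin h).imp id fun ⟨s, hs, g, hg, hf⟩ => ?_⟩
  refine ⟨s + s, by push_cast; omega,
    fun v => Fin.append (fun i => (g v i).re) fun i => (g v i).im, ?_, fun y => ?_⟩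
  · refine continuous_pi fun i => ?_
    refine Fin.addCases (fun i => ?_) (fun i => ?_) i
    · simp only [Fin.append_left]
      fun_prop
    · simp only [Fin.append_right]
      fun_prop
  · refine (hf fun i => ⟨y (Fin.castAdd s i), y (Fin.natAdd s i)⟩).subset ?_
    rintro v ⟨hv, hy⟩
    refine ⟨hv, funext fun i => Complex.ext ?_ ?_⟩
    · simpa using congrFun hy (Fin.castAdd s i)
    · simpa only [Fin.append_right] using congrFun hy (Fin.natAdd s i)

theorem nice_top : LocallyCompactSpace V ∧ SecondCountableTopology V := by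
  let e : V ≃L[ℂ] (Fin (Module.finrank ℂ V) → ℂ) := (Module.finBasis ℂ V).equivFunL
  exact ⟨e.toHomeomorph.locallyCompactSpace_iff.2 inferInstance,
    e.toHomeomorph.secondCountableTopology⟩

end Vale.Agent.P275ZA
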